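import Vale.Agent.P284.H10.AE.Mol
import Vale.Agent.P284.H894.AE.Spec

/-!
# P284, theorem AE, row AE1b, assembly (helper10)
-/

open Filter Set Metric MeasureTheory Topology
open scoped ContDiff

noncomputable section

namespace Vale.Agent.P284.H10.AE

open Vale.Agent.P284.H894.AE

variable {w : ℂ → ℝ}

/-- `w + B` on the unit disc, zero outside -/
def ext (w : ℂ → ℝ) (B : ℝ) : ℂ → ℝ := (ball (0 : ℂ) 1).indicator fun z => w z + B

lemma ext_eq {B : ℝ} {z : ℂ} (hz : z ∈ ball (0 : ℂ) 1) : ext w B z = w z + B :=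
  indicator_of_mem hz _

lemma ext_nn {B : ℝ} (hB : ∀ z, |w z| ≤ B) (z : ℂ) : 0 ≤ ext w B z := by
  apply indicator_nonneg
  intro z _
  have := abs_le.1 (hB z)
  linarith [this.1]

lemma ext_le {B : ℝ} (hB : ∀ z, |w z| ≤ B) (z : ℂ) : ext w B z ≤ 2 * B := by
  have := abs_le.1 (hB z)
  by_cases hz : z ∈ ball (0 : ℂ) 1
  · rw [ext_eq hz]; linarith [this.2]
  · rw [ext, indicator_of_notMem hz]; linarith [this.1, this.2]

lemma ext_usc (hw : Sub w) (B : ℝ) : ∀ z ∈ ball (0 : ℂ) 1, UpperSemicontinuousAt (ext w B) z := by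
  intro z hz a ha
  rw [ext_eq hz] at ha
  have h1 := hw.usc z hz (a - B) (by linarith)
  filter_upwards [h1, isOpen_ball.mem_nhds hz] with y hy hy'
  rw [ext_eq hy']; linarith

lemma ext_meas (hw : Sub w) {B : ℝ} (hB : ∀ z, |w z| ≤ B) : Measurable (ext w B) := by
  apply measurable_of_Iio
  intro a
  by_cases ha : a ≤ 0
  · have : ext w B ⁻¹' Iio a = ∅ := by
      rw [eq_empty_iff_forall_notMem]
      intro z hz
      have := ext_nn hB z
      have hz' : ext w B z < a := hz
      linarith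
    rw [this]; exact MeasurableSet.empty
  · rw [not_le] at ha
    have e : ext w B ⁻¹' Iio a = (ball (0 : ℂ) 1 ∩ ext w B ⁻¹' Iio a) ∪ (ball (0 : ℂ) 1)ᶜ := by
      ext z
      simp only [mem_union, mem_inter_iff, mem_preimage, mem_Iio, mem_compl_iff]
      constructor
      · intro h
        by_cases hz : z ∈ ball (0 : ℂ) 1
        · exact Or.inl ⟨hz, h⟩
        · exact Or.inr hz
      · rintro (h | h)
        · exact h.2
        · rw [ext, indicator_of_notMem h]; exact ha
    rw [e]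
    apply MeasurableSet.union _ measurableSet_ball.compl
    apply IsOpen.measurableSet
    rw [isOpen_iff_mem_nhds]
    rintro z ⟨hz, hz'⟩
    exact inter_mem (isOpen_ball.mem_nhds hz) (ext_usc hw B z hz a hz')

lemma ext_circ (hw : Sub w) {B : ℝ} (hB : ∀ z, |w z| ≤ B) (c : ℂ) (ρ : ℝ) :
    CircleIntegrable (ext w B) c ρ := by
  unfold CircleIntegrable
  apply (intervalIntegrable_const (c := 2 * B)).mono_fun
  · exact ((ext_meas hw hB).comp (continuous_circleMap c ρ).measurable).aestronglyMeasurable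
  · apply ae_of_all
    intro θ
    simp only [Real.norm_eq_abs]
    rw [abs_of_nonneg (ext_nn hB _)]
    exact (ext_le hB _).trans (le_abs_self _)

lemma ext_sub (h1a : AE1a) (hw : Sub w) {B : ℝ} (hB : ∀ z, |w z| ≤ B) (c : ℂ) (ρ : ℝ)
    (hρ : 0 < ρ) (h : ‖c‖ + ρ < 1) : ext w B c ≤ Real.circleAverage (ext w B) c ρ := by
  have hsub : closedBall c ρ ⊆ ball (0 : ℂ) 1 := by
    intro z hz
    rw [mem_ball, dist_zero_right]
    rw [mem_closedBall, dist_eq_norm] at hz
    have := norm_sub_norm_le z c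
    linarith
  have h1 := h1a w hw c ρ hρ hsub
  have e : Real.circleAverage w c ρ = Real.circleAverage (fun z => ext w B z - B) c ρ := by
    apply Real.circleAverage_congr_sphere
    intro z hz
    rw [abs_of_pos hρ] at hz
    show w z = ext w B z - B
    rw [ext_eq (hsub (sphere_subset_closedBall hz))]; ring
  rw [e, Real.circleAverage_fun_sub (ext_circ hw hB c ρ) (circleIntegrable_const _ _ _),
    Real.circleAverage_const] at h1
  rw [ext_eq (hsub (mem_closedBall_self hρ.le))]
  linarith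

lemma ext_dat (h1a : AE1a) (hw : Sub w) {B : ℝ} (hB : ∀ z, |w z| ≤ B) :
    Dat (ext w B) (2 * B) where
  meas := ext_meas hw hB
  nn := ext_nn hB
  le := ext_le hB
  supp z hz := by
    apply indicator_of_notMem
    simpa using hz
  sub := ext_sub h1a hw hB
  usc := ext_usc hw B

/-- the energy bound (helper446's `energy`, literal of #23650) -/
def Energy : Prop := ∀ {r R : ℝ}, 0 < r → r < R → ∃ K, 0 ≤ K ∧ ∀ (f : ℂ → ℝ) (M : ℝ),
  ContDiff ℝ 1 f → HasCompactSupport f → (∀ z, 0 ≤ f z ∧ f z ≤ M) →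
  (∃ δ > 0, ∀ z ∈ ball (0:ℂ) R, ∀ ρ ∈ Ioo 0 δ, f z ≤ Real.circleAverage f z ρ) →
  ∫ z in ball (0:ℂ) r, ‖fderiv ℝ f z‖ ^ 2 ≤ K * M ^ 2

theorem ae1b_of (hE : Energy) : AE1b := by
  intro h1a w hw r hr hr1
  obtain ⟨B, hB⟩ := hw.bdd
  have hD := ext_dat h1a hw hB
  set R : ℝ := (1 + r) / 2 with hR
  have hrR : r < R := by rw [hR]; linarith
  have hR1 : R < 1 := by rw [hR]; linarith
  obtain ⟨K, -, hK⟩ := hE hr hrR
  set c : ℝ := (1 - R) / 2 with hc
  have hc0 : 0 < c := by rw [hc]; linarith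
  set e : ℕ → ℝ := fun k => c / (k + 1) with he
  have he0 : ∀ k, 0 < e k := fun k => by simp only [he]; positivity
  have hec : ∀ k, e k ≤ c := fun k => by
    simp only [he]
    apply div_le_self hc0.le
    have : (0 : ℝ) ≤ k := Nat.cast_nonneg k
    linarith
  have hlim : Tendsto e atTop (𝓝 0) := by
    have h0 := (tendsto_one_div_add_atTop_nhds_zero_nat (𝕜 := ℝ)).const_mul c
    rw [mul_zero] at h0
    refine h0.congr fun k => ?_
    simp only [he]; ring
  refine ⟨fun k z => mol (ext w B) (e k) z - B, K * (2 * B) ^ 2, ?_, ?_, ?_⟩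
  · intro k
    exact ((hD.contDiff (he0 k)).of_le (by simp)).sub contDiff_const
  · intro z hz
    rw [mem_ball, dist_zero_right] at hz
    have h1 := hD.tendsto (z := z) (hz.trans hr1) he0 hlim
    rw [ext_eq (by simpa using hz.trans hr1)] at h1
    have h2 := h1.sub_const B
    simpa using h2
  · intro k
    have h1 := hK (mol (ext w B) (e k)) (2 * B) ((hD.contDiff (he0 k)).of_le (by simp))
      (hD.compact (he0 k)) (fun z => ⟨hD.mol_nonneg (he0 k) z, hD.mol_le (he0 k) z⟩)
      ⟨c, hc0, fun z hz ρ hρ => hD.mol_sub (he0 k) hρ.1 (by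
        rw [mem_ball, dist_zero_right] at hz
        have := hec k
        have := hρ.2
        linarith)⟩
    have h2 : ∀ z, fderiv ℝ (fun z => mol (ext w B) (e k) z - B) z
        = fderiv ℝ (mol (ext w B) (e k)) z := fun z => fderiv_sub_const B
    simp only [h2]
    exact h1

end Vale.Agent.P284.H10.AE
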