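import Vale.Agent.P284.H10.AE.AE1b
import Vale.Agent.P284.H446.AE.En

/-!
# P284, theorem AE, row AE1b (helper10; energy by helper446)
-/

namespace Vale.Agent.P284.H10.AE

theorem ae1b : Vale.Agent.P284.H894.AE.AE1b :=
  ae1b_of (fun hr hrR => Vale.Agent.P284.H446.AE.energy hr hrR)

end Vale.Agent.P284.H10.AE
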